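import Vale.Agent.P281.H349.NF.Lift
import Vale.Agent.P281.H64.Gen.SpecF
import Vale.Agent.P281.H64.TK.SpecN
import Vale.Agent.P281.H511.Gen.Prime

/-! P281, project T-V, block V15 (helper349): neat models, fibres of `f` itself. -/

open scoped Manifold ContDiff Topology
open Set Filter

set_option linter.unusedSectionVars false
set_option linter.unusedVariables false

noncomputable section

namespace Vale.Agent.P281.H349.NF

open Vale.Agent.P281 Vale.Agent.P281.H64 Vale.Agent.P281.H64.Gen Vale.Agent.P281.ISO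
  Vale.Agent.P281.H713 Vale.Agent.P281.H308.Bir
open Vale.Agent.P281.H64.Thin (IsThinSet)

variable {n d : ℕ} {X X₁ F : Type} [TopologicalSpace X] [ChartedSpace (Cm n) X]
  [TopologicalSpace X₁] [ChartedSpace (Cm n) X₁]
  [TopologicalSpace F] [ChartedSpace (Cm d) F] [IsManifold 𝓘(ℂ, Cm n) ω X]
  [IsManifold 𝓘(ℂ, Cm n) ω X₁] [IsManifold 𝓘(ℂ, Cm d) ω F] {u : X₁ → X} {N : Set X}

/-- the lift of a map which avoids `N` is holomorphic -/
theorem holM_lift (h : Mod (n := n) u N) {i : F → X} {t : F} (hi : HolM (Cm d) (Cm n) i t)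
    (hN : i t ∉ N) : HolM (Cm d) (Cm n) (fun t => inv h (i t)) t := by
  have hu : u (inv h (i t)) = i t := u_inv h _
  have hz : u (inv h (i t)) ∉ N := by rw [hu]; exact hN
  have h1 : HolV (Cm n) (chartAt (Cm n) (inv h (i t)) : X₁ → Cm n) (inv h (i t)) :=
    HolV.chart (mem_chart_source _ _)
  have h2 := holV_of_inv h hz h1
  rw [hu] at h2
  have h3 : HolV (Cm d) (fun s => (chartAt (Cm n) (inv h (i t)) : X₁ → Cm n) (inv h (i s))) t :=
    HolV.comp (h := fun y => (chartAt (Cm n) (inv h (i t)) : X₁ → Cm n) (inv h y)) h2 hi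
  have h4 := tendsto_inv h hz
  rw [hu] at h4
  have h5 : ContinuousAt (fun s => inv h (i s)) t := h4.comp hi.continuousAt
  exact contMDiffAt_iff_target.2 ⟨h5, h3⟩

/-- `IsSmall2` subsets of a curve are empty -/
theorem small2_one {F : Type} [TopologicalSpace F] [ChartedSpace (Cm 1) F] {A : Set F}
    (hA : IsSmall2 (Cm 1) A) : A = ∅ := by
  rw [Set.eq_empty_iff_forall_notMem]
  intro x hx
  obtain ⟨-, H, hH, hsub⟩ := hA
  obtain ⟨k, hk⟩ := mem_iUnion.1 (hsub hx)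
  obtain ⟨g, -, hs, -⟩ := (hH k).2 x hk
  obtain ⟨ξ₀, h0⟩ := hs ![1, 0]
  obtain ⟨ξ₁, h1⟩ := hs ![0, 1]
  have key : ∀ (a : Fin 2) (ξ : Cm 1), J.dif (Cm 1) (g a) x ξ =
      ξ 0 * J.dif (Cm 1) (g a) x (fun _ => 1) := by
    intro a ξ
    have e1 : ξ = ξ 0 • (fun _ => 1 : Cm 1) := by
      funext l
      rw [Subsingleton.elim l 0]
      simp
    conv_lhs => rw [e1]
    rw [map_smul, smul_eq_mul]
  have e00 := congrFun h0 0
  have e01 := congrFun h0 1
  have e11 := congrFun h1 1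
  have e00' : ξ₀ 0 * J.dif (Cm 1) (g 0) x (fun _ => 1) = 1 := (key 0 ξ₀).symm.trans e00
  have e01' : ξ₀ 0 * J.dif (Cm 1) (g 1) x (fun _ => 1) = 0 := (key 1 ξ₀).symm.trans e01
  have e11' : ξ₁ 0 * J.dif (Cm 1) (g 1) x (fun _ => 1) = 1 := (key 1 ξ₁).symm.trans e11
  have h2 : ξ₀ 0 ≠ 0 := by
    intro h
    rw [h, zero_mul] at e00'
    exact zero_ne_one e00'
  have h3 := (mul_eq_zero.1 e01').resolve_left h2
  rw [h3, mul_zero] at e11'
  exact zero_ne_one e11'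

/-- the strict transform of a prime divisor, through a point off the exceptional set -/
theorem strict (hIrr : IrrStmt) (hPush : PushStmt) [T2Space X₁] [CompactSpace X]
    (hu : TZ.S.IsModif (Cm n) u) (h : Mod (n := n) u (u '' excSet (Cm n) u)) {D : Set X}
    (hD : J.IsPrime (Cm n) D) {z : X₁} (hz : u z ∉ u '' excSet (Cm n) u) {e : X → ℂ}
    (he : IsLocalEq (Cm n) D e (u z)) (he0 : J.dif (Cm n) e (u z) ≠ 0) (hzD : u z ∈ D) :
    ∃ P : Set X₁, J.IsPrime (Cm n) P ∧ u '' P = D ∧ z ∈ P := by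
  have hcU : Continuous u := continuous_iff_continuousAt.2 fun w => (h.hol w).continuousAt
  have hDc : Dense Dᶜ := by
    rw [dense_iff_inter_open]
    intro U hU hUne
    obtain ⟨x, hxU, hxD⟩ := IsLocalEq.exists_notMem hD.2.1 hU hUne
    exact ⟨x, hxU, hxD⟩
  have hpre : Dense (u ⁻¹' Dᶜ) := h.dpre _ hD.1.isOpen_compl hDc
  have hloc : ∀ x, ∃ g : X₁ → ℂ, J.HolAt (Cm n) g x ∧ (¬ ∀ᶠ w in 𝓝 x, g w = 0) ∧
      ∀ᶠ w in 𝓝 x, w ∈ u ⁻¹' D ↔ g w = 0 := by
    intro x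
    obtain ⟨g, V, hV, hxV, h1, h2, -⟩ := hD.2.1 (u x)
    have hV' : ∀ᶠ w in 𝓝 x, u w ∈ V := (h.hol x).continuousAt.eventually (hV.mem_nhds hxV)
    refine ⟨fun w => g (u w), HolV.comp (h1 _ hxV) (h.hol x), fun h0 => ?_, ?_⟩
    · obtain ⟨w, hw, hw0, hwV⟩ := (mem_closure_iff_frequently.1 (hpre x)).and_eventually
        (h0.and hV') |>.exists
      exact hw ((h2 _ hwV).2 hw0)
    · filter_upwards [hV'] with w hw
      exact h2 _ hw
  have heh : HolV (Cm n) e (u z) := he.holAt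
  have hezh : J.HolAt (Cm n) (fun w => e (u w)) z := HolV.comp heh (h.hol z)
  have hez : e (u z) = 0 := he.mem_iff.1 hzD
  have hde : J.dif (Cm n) (fun w => e (u w)) z ≠ 0 := by
    intro h0
    apply he0
    have h7 := dif_comp (g := e) (f := u) (x := z) heh (h.hol z)
    refine ContinuousLinearMap.ext fun η => ?_
    obtain ⟨ξ, rfl⟩ := (h.exc z hz).2 η
    have h8 := congrArg (fun A : Cm n →L[ℂ] ℂ => A ξ) (h7.symm.trans h0)
    exact h8
  have hev : ∀ᶠ w in 𝓝 z, w ∈ u ⁻¹' D ↔ e (u w) = 0 := by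
    obtain ⟨V, hV, hxV, -, h2, -⟩ := he
    filter_upwards [(h.hol z).continuousAt.eventually (hV.mem_nhds hxV)] with w hw
    exact h2 _ hw
  obtain ⟨P, hP, hPD, hPe⟩ := hIrr n X₁ (u ⁻¹' D) (hD.1.preimage hcU) hloc z
    (fun w => e (u w)) hezh hez hde hev
  have hzP : z ∈ P := (show IsLocalEq (Cm n) P (fun w => e (u w)) z from hPe).mem_iff.2 hez
  have hne : ¬ P ⊆ excSet (Cm n) u := fun hsub => hz ⟨z, hsub hzP, rfl⟩
  have hPu := hPush n X X₁ u P hu hP hne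
  refine ⟨P, hP, ?_, hzP⟩
  refine H511.Gen.prime_eq_of_subset hPu hD ?_
  rintro _ ⟨w, hw, rfl⟩
  exact hPD hw

/-- `Mod` from `IsModif` and `ExcStmt` -/
theorem mod_modif (hExc : ExcStmt) {n : ℕ} {X X₁ : Type} [TopologicalSpace X] [CompactSpace X]
    [ChartedSpace (Cm n) X] [TopologicalSpace X₁] [ChartedSpace (Cm n) X₁] {u : X₁ → X}
    [IsManifold 𝓘(ℂ, Cm n) ω X] [IsManifold 𝓘(ℂ, Cm n) ω X₁]
    (hu : TZ.S.IsModif (Cm n) u) : Mod (n := n) u (u '' excSet (Cm n) u) := by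
  have hN : IsSmall2 (Cm n) (u '' excSet (Cm n) u) := hExc n X X₁ u hu
  obtain ⟨⟨hT2, hT2', hM, hM'⟩, hu', hp, U, hU, hUd, hUd', h1⟩ := hu
  have hNd : Dense (u '' excSet (Cm n) u)ᶜ := H383.Gen.dense_compl_small (small_of_small2 hN)
  exact mod_of hu' hp hU hUd hUd' h1 hN.1 hNd fun z hz => by
    by_contra hcon
    exact hz ⟨z, hcon, rfl⟩

/-- two sequences of thin sets in one -/
theorem thin_two {p : ℕ} {Y : Type} [TopologicalSpace Y] [ChartedSpace (Cm p) Y]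
    {H H' : ℕ → Set Y} (h : ∀ k, IsThinSet (Cm p) (H k)) (h' : ∀ k, IsThinSet (Cm p) (H' k)) :
    ∃ K : ℕ → Set Y, (∀ k, IsThinSet (Cm p) (K k)) ∧ ∀ y, (∀ k, y ∉ K k) →
      (∀ k, y ∉ H k) ∧ ∀ k, y ∉ H' k := by
  refine ⟨fun k => (Equiv.natSumNatEquivNat.symm k).elim H H', fun k => ?_, fun y hy => ⟨fun k => ?_,
    fun k => ?_⟩⟩
  · rcases hk : Equiv.natSumNatEquivNat.symm k with l | l
    · simpa [hk] using h l
    · simpa [hk] using h' l
  · have := hy (Equiv.natSumNatEquivNat (Sum.inl k))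
    simpa using this
  · have := hy (Equiv.natSumNatEquivNat (Sum.inr k))
    simpa using this

/-- **V15**, from V14 and the statements on small sets -/
theorem neatF (hNeat : NeatStmt) (hGen : TK.GenNStmt) (hImg : TK.ImgNStmt) (hExc : ExcStmt)
    (hPush : PushStmt) (hIrr : IrrStmt) : NeatFStmt := by
  intro p X Y X₁ Y₁ tX cX tY cY tX₁ cX₁ tY₁ cY₁ f Δ f₁ Δ₁ h h₁ hs he
  obtain ⟨H₁, hH₁, hmain⟩ := hNeat p X Y X₁ Y₁ f Δ f₁ Δ₁ h h₁ hs he
  obtain ⟨u, v, hu, hv, hcomm, hf, hf₁, hΔ, hΔ₁, hpush, -⟩ := hs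
  have : T2Space X := h.hausdorff.1
  have : T2Space Y := h.hausdorff.2
  have : T2Space X₁ := h₁.hausdorff.1
  have : T2Space Y₁ := h₁.hausdorff.2
  have : CompactSpace X := h.compact
  have : CompactSpace X₁ := h₁.compact
  have : IsManifold 𝓘(ℂ, Cm (p + 1)) ω X := h.manifold.1
  have : IsManifold 𝓘(ℂ, Cm p) ω Y := h.manifold.2
  have : IsManifold 𝓘(ℂ, Cm (p + 1)) ω X₁ := h₁.manifold.1
  have : IsManifold 𝓘(ℂ, Cm p) ω Y₁ := h₁.manifold.2
  have : CompactSpace Y := by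
    have hsur : Function.Surjective f := fun y => (h.fibres y).nonempty
    exact ⟨by rw [← hsur.range_eq]; exact isCompact_range h.hol.continuous⟩
  have : CompactSpace Y₁ := by
    have hsur : Function.Surjective f₁ := fun y => (h₁.fibres y).nonempty
    exact ⟨by rw [← hsur.range_eq]; exact isCompact_range h₁.hol.continuous⟩
  have hM : Mod (n := p + 1) u (u '' excSet (Cm (p + 1)) u) := mod_modif hExc hu
  have hMv : Mod (n := p) v (v '' excSet (Cm p) v) := mod_modif hExc hv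
  obtain ⟨H₂, hH₂, hmain₂⟩ := hGen p 1 X Y f (u '' excSet (Cm (p + 1)) u) hf
    (hExc (p + 1) X X₁ u hu)
  obtain ⟨H₃, hH₃, hsub₃⟩ := hImg p Y Y₁ v H₁ hv hH₁
  obtain ⟨K, hK, hKy⟩ := thin_two hH₂ hH₃
  refine ⟨K, hK, fun y hy F _ _ i hi => ?_⟩
  obtain ⟨hy₂, hy₃⟩ := hKy y hy
  have : IsManifold 𝓘(ℂ, Cm 1) ω F := hi.manifold
  have hN : ∀ t, i t ∉ u '' excSet (Cm (p + 1)) u := by
    intro t ht
    have h1 := small2_one (hmain₂ y hy₂ F i hi)
    have h2 : t ∈ i ⁻¹' (u '' excSet (Cm (p + 1)) u) := ht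
    rw [h1] at h2
    exact h2
  have hyv : y ∉ v '' (excSet (Cm p) v ∪ ⋃ k, H₁ k) := by
    intro h1
    obtain ⟨k, hk⟩ := mem_iUnion.1 (hsub₃ h1)
    exact hy₃ k hk
  set y₁ : Y₁ := inv hMv y with hy₁
  have hvy : v y₁ = y := u_inv hMv y
  have hyN : v y₁ ∉ v '' excSet (Cm p) v := by
    rw [hvy]
    exact fun h1 => hyv (image_mono subset_union_left h1)
  have hy₁H : ∀ k, y₁ ∉ H₁ k := fun k hk =>
    hyv ⟨y₁, Or.inr (mem_iUnion.2 ⟨k, hk⟩), hvy⟩
  set i₁ : F → X₁ := fun t => inv hM (i t) with hi₁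
  have hui : ∀ t, u (i₁ t) = i t := fun t => u_inv hM _
  have hi' : ∀ t, HolM (Cm 1) (Cm (p + 1)) i t := fun t => hi.hol t
  have hi₁' : ∀ t, HolM (Cm 1) (Cm (p + 1)) i₁ t := fun t => holM_lift hM (hi' t) (hN t)
  have hfib : H511.Surf.IsFibre (Cm (p + 1)) (Cm 1) f₁ y₁ i₁ := by
    refine ⟨hi.compact, hi.connected, hi.manifold, fun t => hi₁' t, fun t => ?_, fun t => ?_⟩
    · have hcomp : i = u ∘ i₁ := by
        funext s
        exact (hui s).symm
      have h2 := hi.immersion t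
      rw [hcomp, mfderiv_comp t ((hM.hol _).mdifferentiableAt (by simp))
        ((hi₁' t).mdifferentiableAt (by simp))] at h2
      intro a b hab
      exact h2 (by simp only [ContinuousLinearMap.comp_apply, hab])
    · have h1 : v (f₁ (i₁ t)) = v y₁ := by
        rw [← hcomm, hui, hi.fibre, hvy]
      exact (hMv.inj _ _ h1.symm hyN).symm
  have hkod : TZ.S.kodR (Cm (p + 1)) (Cm 1) i Δ ≤ TZ.S.kodR (Cm (p + 1)) (Cm 1) i₁ Δ₁ := by
    refine kodR_lift hM hΔ hΔ₁ hi' hi₁' hN hui (fun D hD => ?_) fun D hD t ht => ?_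
    · have hD' : J.IsPrime (Cm (p + 1)) D := (hΔ₁.2.1 D hD)
      by_cases hex : D ⊆ excSet (Cm (p + 1)) u
      · exact Or.inl fun w hw => mem_image_of_mem u (hex hw)
      · have hP := hPush (p + 1) X X₁ u D hu hD' hex
        exact Or.inr ⟨hP, hpush D hD' hP⟩
    · have hD' : J.IsPrime (Cm (p + 1)) D := (hΔ.2.1 D hD)
      -- `D` is smooth
      have hch : ∀ C, ∃ g : X → ℂ, Δ C ≠ 0 → IsLocalEq (Cm (p + 1)) C g (i t) := by
        intro C
        by_cases hC : Δ C ≠ 0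
        · obtain ⟨g, hg⟩ := (hΔ.2.1 C hC).2.1 (i t)
          exact ⟨g, fun _ => hg⟩
        · exact ⟨0, fun h => absurd h hC⟩
      choose g hg using hch
      have hne : J.dif (Cm (p + 1)) (g D) (i t) ≠ 0 := by
        obtain ⟨ξ, hξ⟩ := hΔ.2.2.2 (i t) g (fun C hC _ => hg C hC) (fun _ => 1)
        intro h0
        have h1 := congrFun hξ ⟨D, hD, ht⟩
        simp only [h0, zero_apply] at h1
        exact zero_ne_one h1
      obtain ⟨P, hP, hPD, hzP⟩ := strict hIrr hPush hu hM hD' (z := i₁ t)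
        (by rw [hui]; exact hN t) (e := g D) (by rw [hui]; exact hg D hD)
        (by rw [hui]; exact hne) (by rw [hui]; exact ht)
      refine ⟨P, hPD, hzP, ?_⟩
      rw [hpush P hP (by rw [hPD]; exact hD'), hPD]
      exact hD
  exact (add_le_add hkod le_rfl).trans (hmain y₁ hy₁H F i₁ hfib)

end Vale.Agent.P281.H349.NF
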