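import Vale.Agent.P281.H308.Bir.Main

/-! P281, project T-V, block V15 (helper349): the Kodaira dimension of a fibre which does not meet
the image of the exceptional set does not decrease when the fibre is lifted to a modification. -/

open scoped Manifold ContDiff Topology
open Set Filter

set_option linter.unusedSectionVars false

noncomputable section

namespace Vale.Agent.P281.H349.NF

open Vale.Agent.P281 Vale.Agent.P281.H64 Vale.Agent.P281.H64.Gen Vale.Agent.P281.ISO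
  Vale.Agent.P281.H713 Vale.Agent.P281.H308.Bir

variable {n d : ℕ} {X F : Type} [TopologicalSpace X] [ChartedSpace (Cm n) X]
  [TopologicalSpace F] [ChartedSpace (Cm d) F] [IsManifold 𝓘(ℂ, Cm n) ω X]
  [IsManifold 𝓘(ℂ, Cm d) ω F]

/-- the pull-backs of the local equations of `D` -/
def eqI (i : F → X) (D : Set X) (t : F) (g : F → ℂ) : Prop :=
  ∃ e, IsLocalEq (Cm n) D e (i t) ∧ ∀ᶠ s in 𝓝 t, g s = e (i s)

theorem eqI_hol {i : F → X} (hi : ∀ t, HolM (Cm d) (Cm n) i t) {D : Set X} {t : F} {g : F → ℂ}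
    (h : eqI (n := n) i D t g) : HolV (Cm d) g t := by
  obtain ⟨e, he, hg⟩ := h
  exact (HolV.comp he.holAt (hi t)).congr hg

theorem eqI_ne {i : F → X} {D : Set X} {t : F} {g : F → ℂ}
    (h : eqI (n := n) i D t g) : g t ≠ 0 ↔ i t ∉ D := by
  obtain ⟨e, he, hg⟩ := h
  rw [hg.self_of_nhds, not_iff_not]
  exact he.mem_iff.symm

theorem eqI_one {i : F → X} {D : Set X} (hD : IsClosed D) {t : F} (ht : i t ∉ D) :
    eqI (n := n) i D t (fun _ => 1) :=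
  ⟨fun _ => 1, ⟨Dᶜ, hD.isOpen_compl, ht, fun _ _ => HolV.const _ _,
    fun _ hz => ⟨fun h => absurd h hz, fun h => absurd h one_ne_zero⟩,
    fun _ hz => absurd hz.1 hz.2⟩, Eventually.of_forall fun _ => rfl⟩

theorem eqI_ratio {i : F → X} (hi : ∀ t, HolM (Cm d) (Cm n) i t) {D : Set X} {t : F}
    {g g' : F → ℂ} (h : eqI (n := n) i D t g) (h' : eqI (n := n) i D t g') :
    ∃ w : F → ℂ, HolV (Cm d) w t ∧ w t ≠ 0 ∧ ∀ᶠ s in 𝓝 t, g s = w s * g' s := by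
  obtain ⟨e, he, hg⟩ := h
  obtain ⟨e', he', hg'⟩ := h'
  obtain ⟨w, hw, hw0, hwe⟩ := H76.unit_ratio_red he he'
  refine ⟨fun s => w (i s), HolV.comp hw (hi t), hw0, ?_⟩
  filter_upwards [hg, hg', (hi t).continuousAt.eventually hwe] with s h1 h2 h3
  rw [h1, h2, h3]

/-- A section, with respect to given local equations. -/
theorem sec_std {i : F → X} (hi : ∀ t, HolM (Cm d) (Cm n) i t) {m : ℕ} {k : Set X → ℕ} {s : F → ℂ}
    (hs : IsSection (Cm d) (eqI (n := n) i) m k s) {t : F} {T : Finset (Set X)}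
    {g : Set X → F → ℂ} (hT : ∀ D, k D ≠ 0 → i t ∈ D → D ∈ T)
    (hg : ∀ D ∈ T, eqI (n := n) i D t (g D)) :
    ∃ a : F → ℂ, HolV (Cm d) a t ∧ ∀ᶠ z in 𝓝 t, ∏ D ∈ T, g D z ^ k D ≠ 0 →
      s z * ∏ D ∈ T, g D z ^ k D = a z * jac (Cm d) (chartAt (Cm d) t) z ^ m := by
  classical
  obtain ⟨T₁, g₁, a₁, hT₁, hg₁, ha₁, hev⟩ := hs t
  -- compare
  have hch : ∀ D, ∃ w : F → ℂ, HolV (Cm d) w t ∧ w t ≠ 0 ∧
      (D ∈ T → D ∈ T₁ → ∀ᶠ z in 𝓝 t, g D z = w z * g₁ D z) := by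
    intro D
    by_cases hD : D ∈ T ∧ D ∈ T₁
    · obtain ⟨w, hw, hw0, hwe⟩ := eqI_ratio hi (hg D hD.1) (hg₁ D hD.2)
      exact ⟨w, hw, hw0, fun _ _ => hwe⟩
    · exact ⟨fun _ => 1, HolV.const _ _, one_ne_zero, fun h1 h2 => absurd ⟨h1, h2⟩ hD⟩
  choose w hw hw0 hwe using hch
  set P : Finset (Set X) := T ∩ T₁ with hP
  set A : F → ℂ := fun z => (∏ D ∈ T \ P, g D z ^ k D) * ∏ D ∈ P, w D z ^ k D with hA
  set B : F → ℂ := fun z => ∏ D ∈ T₁ \ P, g₁ D z ^ k D with hB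
  have hAh : HolV (Cm d) A t := HolV.mul
    (HolV.prod fun D hD => (eqI_hol hi (hg D (Finset.mem_sdiff.1 hD).1)).pow _)
    (HolV.prod fun D _ => (hw D).pow _)
  have hBh : HolV (Cm d) B t :=
    HolV.prod fun D hD => (eqI_hol hi (hg₁ D (Finset.mem_sdiff.1 hD).1)).pow _
  have hB0 : B t ≠ 0 := by
    refine Finset.prod_ne_zero_iff.2 fun D hD => ?_
    rw [Finset.mem_sdiff, hP, Finset.mem_inter] at hD
    by_cases h0 : k D = 0
    · rw [h0, pow_zero]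
      exact one_ne_zero
    · refine pow_ne_zero _ ((eqI_ne (hg₁ D hD.1)).2 fun h1 => hD.2 ⟨hT D h0 h1, hD.1⟩)
  refine ⟨fun z => a₁ z * (A z / B z), HolV.mul ha₁ (HolV.div hAh hBh hB0), ?_⟩
  have hall : ∀ᶠ z in 𝓝 t, ∀ D ∈ P, g D z = w D z * g₁ D z := by
    rw [Filter.eventually_all_finset]
    intro D hD
    rw [hP, Finset.mem_inter] at hD
    exact hwe D hD.1 hD.2
  filter_upwards [hev, hall, hBh.continuousAt.eventually_ne hB0] with z h1 h2 h3 h4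
  have e1 : ∏ D ∈ T, g D z ^ k D = A z * ∏ D ∈ P, g₁ D z ^ k D := by
    rw [← Finset.prod_sdiff (Finset.inter_subset_left : P ⊆ T), hA]
    show _ = (∏ D ∈ T \ P, g D z ^ k D) * (∏ D ∈ P, w D z ^ k D) * _
    rw [mul_assoc, ← Finset.prod_mul_distrib]
    congr 1
    refine Finset.prod_congr rfl fun D hD => ?_
    rw [h2 D hD, mul_pow]
  have e2 : ∏ D ∈ T₁, g₁ D z ^ k D = B z * ∏ D ∈ P, g₁ D z ^ k D :=
    (Finset.prod_sdiff (Finset.inter_subset_right : P ⊆ T₁)).symm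
  set Q := ∏ D ∈ P, g₁ D z ^ k D with hQ
  have hQ0 : Q ≠ 0 := fun h0 => h4 (by rw [e1, h0, mul_zero])
  have e3 := h1 (by rw [e2]; exact mul_ne_zero h3 hQ0)
  rw [e2] at e3
  rw [e1]
  show s z * (A z * Q) = a₁ z * (A z / B z) * jac (Cm d) (chartAt (Cm d) t) z ^ m
  have e4 : a₁ z * (A z / B z) * jac (Cm d) (chartAt (Cm d) t) z ^ m =
      (a₁ z * jac (Cm d) (chartAt (Cm d) t) z ^ m) * (A z / B z) := by ring
  have e5 : a₁ z * jac (Cm d) (chartAt (Cm d) t) z ^ m = s z * (B z * Q) := e3.symm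
  rw [e4, e5]
  field_simp

section Two

variable {X₁ : Type} [TopologicalSpace X₁] [ChartedSpace (Cm n) X₁] [IsManifold 𝓘(ℂ, Cm n) ω X₁]
  {u : X₁ → X} {N : Set X}

theorem kodR_lift (h : Mod (n := n) u N) {Δ : Set X → ℝ} {Δ₁ : Set X₁ → ℝ}
    (hΔ : J.IsSNC (Cm n) Δ) (hΔ₁ : J.IsSNC (Cm n) Δ₁) {i : F → X} {i₁ : F → X₁}
    (hi : ∀ t, HolM (Cm d) (Cm n) i t) (_hi₁ : ∀ t, HolM (Cm d) (Cm n) i₁ t)
    (hN : ∀ t, i t ∉ N) (hu : ∀ t, u (i₁ t) = i t)
    (hdn' : ∀ D, Δ₁ D ≠ 0 → (∀ w ∈ D, u w ∈ N) ∨ J.IsPrime (Cm n) (u '' D) ∧ Δ₁ D = Δ (u '' D))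
    (hup : ∀ D, Δ D ≠ 0 → ∀ t, i t ∈ D → ∃ D₁, u '' D₁ = D ∧ i₁ t ∈ D₁ ∧ Δ₁ D₁ ≠ 0) :
    TZ.S.kodR (Cm n) (Cm d) i Δ ≤ TZ.S.kodR (Cm n) (Cm d) i₁ Δ₁ := by
  classical
  have hdn : ∀ D, Δ₁ D ≠ 0 → ∀ t, i₁ t ∈ D → J.IsPrime (Cm n) (u '' D) ∧ Δ₁ D = Δ (u '' D) := by
    intro D hD t ht
    rcases hdn' D hD with h1 | h1
    · exact absurd (h1 _ ht) (by rw [hu]; exact hN t)
    · exact h1
  unfold TZ.S.kodR J.kod
  refine iSup₂_le ?_
  rintro j ⟨m, k, s, z, hm, hk, hs, hz, hs0, hsurj⟩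
  refine le_iSup₂_of_le j ?_ le_rfl
  have hm' : (m : ℝ) ≠ 0 := by exact_mod_cast hm.ne'
  obtain ⟨q, hq, K₁, hK₁, -⟩ := exists_denominator (JB.snc hΔ₁)
  have hq' : (q : ℝ) ≠ 0 := by exact_mod_cast hq.ne'
  have hq1 : q - 1 + 1 = q := by omega
  have hkΔ : ∀ D, k D ≠ 0 ↔ Δ D ≠ 0 := by
    intro D
    have h1 := hk D
    rw [not_iff_not]
    constructor
    · intro h2
      rw [h2, Nat.cast_zero] at h1
      exact (mul_eq_zero.1 h1.symm).resolve_left hm'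
    · intro h2
      rw [h2, mul_zero] at h1
      exact_mod_cast h1
  have hk₁Δ : ∀ D, m * K₁ D ≠ 0 ↔ Δ₁ D ≠ 0 := by
    intro D
    have h1 := hK₁ D
    rw [not_iff_not]
    constructor
    · intro h2
      have h3 : K₁ D = 0 := (Nat.mul_eq_zero.1 h2).resolve_left hm.ne'
      rw [h3, Nat.cast_zero] at h1
      exact (mul_eq_zero.1 h1.symm).resolve_left hq'
    · intro h2
      rw [h2, mul_zero] at h1
      have h3 : K₁ D = 0 := by exact_mod_cast h1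
      rw [h3, mul_zero]
  have hkk : ∀ D t, Δ₁ D ≠ 0 → i₁ t ∈ D → m * K₁ D = k (u '' D) * q := by
    intro D t hD ht
    have h1 := (hdn D hD t ht).2
    have h2 : ((m * K₁ D : ℕ) : ℝ) = ((k (u '' D) * q : ℕ) : ℝ) := by
      push_cast
      rw [hK₁ D, hk (u '' D), h1]
      ring
    exact_mod_cast h2
  have hcl₁ : ∀ D, Δ₁ D ≠ 0 → IsClosed D := fun D hD => (hΔ₁.2.1 D hD).1
  refine ⟨m * q, fun D => m * K₁ D, fun b t => s b t * s 0 t ^ (q - 1), z, Nat.mul_pos hm hq,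
    fun D => ?_, fun b t₀ => ?_, fun D hD => ?_, ?_, ?_⟩
  · push_cast
    rw [hK₁ D]
    ring
  · -- the local equations on `X₁` and on `X`
    set T₁ : Finset (Set X₁) := hΔ₁.1.toFinset with hT₁
    have hT₁m : ∀ D, D ∈ T₁ ↔ Δ₁ D ≠ 0 := fun D => by
      rw [hT₁, Set.Finite.mem_toFinset]
      rfl
    set P : Finset (Set X₁) := T₁.filter (fun D => i₁ t₀ ∈ D) with hP
    have hPm : ∀ D, D ∈ P ↔ Δ₁ D ≠ 0 ∧ i₁ t₀ ∈ D := fun D => by
      rw [hP, Finset.mem_filter, hT₁m]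
    set T : Finset (Set X) := P.image (fun D => u '' D) with hT
    have hTi : ∀ D ∈ T, Δ D ≠ 0 ∧ i t₀ ∈ D := by
      intro D hD
      rw [hT, Finset.mem_image] at hD
      obtain ⟨D₁, hD₁, rfl⟩ := hD
      obtain ⟨h1, h2⟩ := (hPm D₁).1 hD₁
      refine ⟨?_, ⟨i₁ t₀, h2, hu t₀⟩⟩
      rw [← (hdn D₁ h1 t₀ h2).2]
      exact h1
    have hTk : ∀ D, k D ≠ 0 → i t₀ ∈ D → D ∈ T := by
      intro D hD ht
      obtain ⟨D₁, h1, h2, h3⟩ := hup D ((hkΔ D).1 hD) t₀ ht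
      rw [hT, Finset.mem_image]
      exact ⟨D₁, (hPm D₁).2 ⟨h3, h2⟩, h1⟩
    have hch : ∀ D, ∃ e : X → ℂ, D ∈ T → IsLocalEq (Cm n) D e (i t₀) := by
      intro D
      by_cases hDT : D ∈ T
      · obtain ⟨g, hg⟩ := (hΔ.2.1 D (hTi D hDT).1).2.1 (i t₀)
        exact ⟨g, fun _ => hg⟩
      · exact ⟨0, fun h => absurd h hDT⟩
    choose e he using hch
    have hgT : ∀ D ∈ T, eqI (n := n) i D t₀ (fun t => e D (i t)) := fun D hD =>
      ⟨e D, he D hD, Eventually.of_forall fun _ => rfl⟩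
    have hsec : ∀ c, IsSection (Cm d) (eqI (n := n) i) m k (s c) := hs
    obtain ⟨ab, hab, habe⟩ := sec_std hi (hsec b) hTk hgT
    obtain ⟨a0, ha0, ha0e⟩ := sec_std hi (hsec 0) hTk hgT
    have hcU : Continuous u := continuous_iff_continuousAt.2 fun w => (h.hol w).continuousAt
    set g₁ : Set X₁ → F → ℂ := fun D t => if i₁ t₀ ∈ D then e (u '' D) (i t) else 1 with hg₁
    refine ⟨T₁, g₁, fun t => ab t * a0 t ^ (q - 1), fun D hD => (hT₁m D).2 ((hk₁Δ D).1 hD),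
      fun D hD => ?_, HolV.mul hab (ha0.pow _), ?_⟩
    · show eqI (n := n) i₁ D t₀ (g₁ D)
      by_cases hDt : i₁ t₀ ∈ D
      · have hDT : u '' D ∈ T := by
          rw [hT]
          exact Finset.mem_image_of_mem _ ((hPm D).2 ⟨(hT₁m D).1 hD, hDt⟩)
        have h1 : IsLocalEq (Cm n) D (fun w => e (u '' D) (u w)) (i₁ t₀) :=
          localEq_pull h (by rw [hu]; exact hN t₀) (by rw [hu]; exact he _ hDT)
        refine ⟨fun w => e (u '' D) (u w), h1, Eventually.of_forall fun t => ?_⟩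
        simp only [hg₁, if_pos hDt, hu]
      · have h1 : g₁ D = fun _ => 1 := by
          funext t
          simp only [hg₁, if_neg hDt]
        rw [h1]
        exact eqI_one (hcl₁ D ((hT₁m D).1 hD)) hDt
    · filter_upwards [habe, ha0e] with t h1 h2 h3
      have e1 : ∏ D ∈ T₁, g₁ D t ^ (m * K₁ D) = (∏ D ∈ T, e D (i t) ^ k D) ^ q := by
        rw [hT, Finset.prod_image, ← Finset.prod_pow, hP, Finset.prod_filter]
        · refine Finset.prod_congr rfl fun D hD => ?_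
          by_cases hDt : i₁ t₀ ∈ D
          · rw [if_pos hDt]
            simp only [hg₁, if_pos hDt]
            rw [hkk D t₀ ((hT₁m D).1 hD) hDt, pow_mul]
          · rw [if_neg hDt]
            simp only [hg₁, if_neg hDt, one_pow]
        · intro D hD D' hD' hDD
          obtain ⟨h4, h5⟩ := (hPm D).1 hD
          obtain ⟨h4', h5'⟩ := (hPm D').1 hD'
          exact comp_inj h (JB.snc hΔ₁) (fun C hC => (hdn' C hC).imp_right fun h => h.1.2.1)
            (by rw [hu]; exact hN t₀) h4 h4' h5 h5' hDD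
      have hne : ∏ D ∈ T, e D (i t) ^ k D ≠ 0 := by
        intro h0
        apply h3
        rw [e1, h0, zero_pow hq.ne']
      have h1' := h1 hne
      have h2' := h2 hne
      rw [e1]
      show s b t * s 0 t ^ (q - 1) * (∏ D ∈ T, e D (i t) ^ k D) ^ q =
        ab t * a0 t ^ (q - 1) * jac (Cm d) (chartAt (Cm d) t₀) t ^ (m * q)
      set R := ∏ D ∈ T, e D (i t) ^ k D with hR
      set J := jac (Cm d) (chartAt (Cm d) t₀) t with hJ
      have h9 : R * R ^ (q - 1) = R ^ q := by rw [← pow_succ', hq1]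
      have h10 : J ^ m * (J ^ m) ^ (q - 1) = J ^ (m * q) := by rw [← pow_succ', hq1, ← pow_mul]
      calc s b t * s 0 t ^ (q - 1) * R ^ q = (s b t * R) * (s 0 t * R) ^ (q - 1) := by
            rw [mul_pow, ← h9]; ring
        _ = (ab t * J ^ m) * (a0 t * J ^ m) ^ (q - 1) := by rw [h1', h2']
        _ = ab t * a0 t ^ (q - 1) * (J ^ m * (J ^ m) ^ (q - 1)) := by rw [mul_pow]; ring
        _ = _ := by rw [h10]
  · -- the point
    have hD0 : Δ₁ D ≠ 0 := (hk₁Δ D).1 hD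
    have hzD : i₁ z ∉ D := by
      intro hzD
      have h1 : k (u '' D) ≠ 0 := by
        rw [hkΔ, ← (hdn D hD0 z hzD).2]
        exact hD0
      obtain ⟨g, hg, hg0⟩ := hz _ h1
      exact (eqI_ne (n := n) (i := i) hg).1 hg0 ⟨i₁ z, hzD, hu z⟩
    exact ⟨fun _ => 1, eqI_one (hcl₁ D hD0) hzD, one_ne_zero⟩
  · exact mul_ne_zero hs0 (pow_ne_zero _ hs0)
  · have hfun : ∀ b : ℕ, (fun t => s (b + 1) t * s 0 t ^ (q - 1) / (s 0 t * s 0 t ^ (q - 1))) =
        fun t => s (b + 1) t / s 0 t := by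
      intro b
      funext t
      by_cases h0 : s 0 t = 0
      · rw [h0, zero_mul, div_zero, div_zero]
      · rw [mul_div_mul_right _ _ (pow_ne_zero _ h0)]
    simp only [hfun]
    exact hsurj

end Two

end Vale.Agent.P281.H349.NF
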